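import Mathlib

/-!
The relation `D` between join-irreducible elements of a finite lattice and the
existence of covers refining a given inequality `p ≤ a ⊔ b`.
-/

namespace Vale.Agent.P183

variable {L : Type} [Lattice L]

/-- Day's dependence relation between join-irreducible elements. -/
def Dep (p q : L) : Prop :=
  SupIrred p ∧ SupIrred q ∧ p ≠ q ∧ ∃ x, p ≤ q ⊔ x ∧ ∀ y < q, ¬ p ≤ y ⊔ x

/-- The relation `D` has no cycle. -/
def NoDepCycle (L : Type) [Lattice L] : Prop :=
  ∀ p : L, ¬ Relation.TransGen Dep p p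

variable [BoundedOrder L]

/-- A cover of `p` all of whose members depend on `p`. -/
def Cov (p : L) (C : Finset L) : Prop :=
  p ≤ C.sup id ∧ ∀ c ∈ C, SupIrred c ∧ Dep p c

theorem exists_cov [Fintype L] {p a b : L} (hp : SupIrred p) (h : p ≤ a ⊔ b) (ha : ¬ p ≤ a)
    (hb : ¬ p ≤ b) : ∃ C, Cov p C ∧ ∀ c ∈ C, c ≤ a ∨ c ≤ b := by
  classical
  let good : Finset (Finset L) := Finset.univ.filter fun C =>
    p ≤ C.sup id ∧ ∀ c ∈ C, SupIrred c ∧ (c ≤ a ∨ c ≤ b)
  let down : Finset L → Finset L := fun C => Finset.univ.filter fun l => ∃ c ∈ C, l ≤ c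
  let size : Finset L → ℕ := fun C => (down C).card * (Fintype.card L + 1) + C.card
  have hne : good.Nonempty := by
    obtain ⟨s, hs, hs'⟩ := exists_supIrred_decomposition a
    obtain ⟨t, ht, ht'⟩ := exists_supIrred_decomposition b
    refine ⟨s ∪ t, Finset.mem_filter.2 ⟨Finset.mem_univ _, ?_, ?_⟩⟩
    · rw [Finset.sup_union, hs, ht]
      exact h
    · intro c hc
      rcases Finset.mem_union.1 hc with k | k
      · exact ⟨hs' k, Or.inl (hs ▸ Finset.le_sup (f := id) k)⟩
      · exact ⟨ht' k, Or.inr (ht ▸ Finset.le_sup (f := id) k)⟩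
  obtain ⟨C, hC, hmin⟩ := Finset.exists_min_image good size hne
  obtain ⟨hle, hmem⟩ := (Finset.mem_filter.1 hC).2
  have anti : ∀ q ∈ C, ∀ c ∈ C.erase q, ¬ q ≤ c := by
    intro q hq c hc hqc
    have hg : C.erase q ∈ good := by
      refine Finset.mem_filter.2 ⟨Finset.mem_univ _, le_trans hle ?_,
        fun d hd => hmem d (Finset.mem_of_mem_erase hd)⟩
      refine Finset.sup_le fun d hd => ?_
      by_cases e : d = q
      · subst e
        exact le_trans hqc (Finset.le_sup (f := id) hc)
      · exact Finset.le_sup (f := id) (Finset.mem_erase.2 ⟨e, hd⟩)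
    have h1 := hmin _ hg
    have h2 : (down (C.erase q)).card ≤ (down C).card := by
      refine Finset.card_le_card fun l hl => ?_
      obtain ⟨d, hd, hld⟩ := (Finset.mem_filter.1 hl).2
      exact Finset.mem_filter.2 ⟨Finset.mem_univ _, d, Finset.mem_of_mem_erase hd, hld⟩
    have h3 := Finset.card_erase_lt_of_mem hq
    have h4 : (down (C.erase q)).card * (Fintype.card L + 1)
        ≤ (down C).card * (Fintype.card L + 1) := Nat.mul_le_mul_right _ h2
    simp only [size] at h1
    omega
  refine ⟨C, ⟨hle, fun q hq => ⟨(hmem q hq).1, hp, (hmem q hq).1, ?_, (C.erase q).sup id, ?_,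
    ?_⟩⟩, fun c hc => (hmem c hc).2⟩
  · rintro rfl
    exact (hmem p hq).2.elim ha hb
  · have : q ⊔ (C.erase q).sup id = C.sup id := by
      conv_rhs => rw [← Finset.insert_erase hq, Finset.sup_insert]
      rfl
    rw [this]
    exact hle
  · intro y hy hpy
    obtain ⟨s, hs, hs'⟩ := exists_supIrred_decomposition y
    have hsy : ∀ c ∈ s, c ≤ y := fun c hc => hs ▸ Finset.le_sup (f := id) hc
    have hg : s ∪ C.erase q ∈ good := by
      refine Finset.mem_filter.2 ⟨Finset.mem_univ _, ?_, ?_⟩
      · rw [Finset.sup_union, hs]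
        exact hpy
      · intro c hc
        rcases Finset.mem_union.1 hc with k | k
        · have hcq : c ≤ q := le_trans (hsy c k) hy.le
          exact ⟨hs' k, (hmem q hq).2.imp (fun e => le_trans hcq e) (fun e => le_trans hcq e)⟩
        · exact hmem c (Finset.mem_of_mem_erase k)
    have h1 := hmin _ hg
    have h2 : down (s ∪ C.erase q) ⊂ down C := by
      refine Finset.ssubset_iff_of_subset ?_ |>.2 ⟨q, ?_, ?_⟩
      · intro l hl
        obtain ⟨d, hd, hld⟩ := (Finset.mem_filter.1 hl).2
        refine Finset.mem_filter.2 ⟨Finset.mem_univ _, ?_⟩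
        rcases Finset.mem_union.1 hd with k | k
        · exact ⟨q, hq, le_trans hld (le_trans (hsy d k) hy.le)⟩
        · exact ⟨d, Finset.mem_of_mem_erase k, hld⟩
      · exact Finset.mem_filter.2 ⟨Finset.mem_univ _, q, hq, le_rfl⟩
      · intro hq'
        obtain ⟨d, hd, hqd⟩ := (Finset.mem_filter.1 hq').2
        rcases Finset.mem_union.1 hd with k | k
        · exact hy.not_ge (le_trans hqd (hsy d k))
        · exact anti q hq d k hqd
    have h3 := Finset.card_lt_card h2
    have h4 : (s ∪ C.erase q).card ≤ Fintype.card L := Finset.card_le_univ _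
    have h5 : ((down (s ∪ C.erase q)).card + 1) * (Fintype.card L + 1)
        ≤ (down C).card * (Fintype.card L + 1) := Nat.mul_le_mul_right _ h3
    simp only [size] at h1
    rw [add_mul, one_mul] at h5
    omega

end Vale.Agent.P183
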