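import Mathlib

/-!
Definitions for P183: representable lattices and the lattices `L_K`.

`L_K` is the set of equivalence relations on `Bool × K` consisting of the
universal relation, the relation of lying in the same row, and, for every set
`A` of columns, the relation of lying in the same column of `A` or being equal.
-/

namespace Vale.Agent.P183

/-- An equivalence relation is compatible with a finite list of finitary operations. -/
def Compat {A : Type} (ops : List (Σ n : ℕ, (Fin n → A) → A)) (s : Setoid A) : Prop :=
  ∀ op ∈ ops, ∀ x y : Fin op.1 → A, (∀ k, s (x k) (y k)) → s (op.2 x) (op.2 y)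

/-- `L` is isomorphic to the whole congruence lattice of a finite algebra. -/
def Representable (L : Type) [Lattice L] : Prop :=
  ∃ (A : Type) (_ : Fintype A) (_ : Nonempty A) (ops : List (Σ n : ℕ, (Fin n → A) → A)),
    Nonempty (L ≃o {s : Setoid A // Compat ops s})

/-- The relation of lying in the same row of `Bool × K`. -/
def sameRow (K : Type) : Setoid (Bool × K) := Setoid.ker Prod.fst

/-- Equal, or in the same column, that column belonging to `A`. -/
def colRel {K : Type} (A : Set K) : Setoid (Bool × K) where
  r z z' := z = z' ∨ (z.2 = z'.2 ∧ z.2 ∈ A)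
  iseqv :=
    { refl := fun _ => Or.inl rfl
      symm := by
        rintro z z' (rfl | ⟨h, hA⟩)
        · exact Or.inl rfl
        · exact Or.inr ⟨h.symm, h ▸ hA⟩
      trans := by
        rintro a b c (rfl | ⟨h, hA⟩) (rfl | ⟨h', hB⟩)
        · exact Or.inl rfl
        · exact Or.inr ⟨h', hB⟩
        · exact Or.inr ⟨h, hA⟩
        · exact Or.inr ⟨h.trans h', hA⟩ }

/-- Membership in `L_K`. -/
def Allowed {K : Type} (s : Setoid (Bool × K)) : Prop :=
  s = ⊤ ∨ s = sameRow K ∨ ∃ A : Set K, s = colRel A

end Vale.Agent.P183
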