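import Vale.Agent.P183.Defs

/-!
Kurzweil's theorem: the dual of a representable lattice is representable.
-/

namespace Vale.Agent.P183

/-- The group used for the dual representation. -/
abbrev A5 := alternatingGroup (Fin 5)

theorem a5_noncomm : ∃ a b : A5, a * b ≠ b * a :=
  ⟨⟨Equiv.swap 0 1 * Equiv.swap 1 2, Equiv.Perm.mem_alternatingGroup.2 (by decide)⟩,
    ⟨Equiv.swap 1 2 * Equiv.swap 2 3, Equiv.Perm.mem_alternatingGroup.2 (by decide)⟩,
    by decide⟩

variable {A : Type}

/-- The subgroup of constant functions. -/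
def diag (A : Type) : Subgroup (A → A5) := (MonoidHom.pi fun _ : A => MonoidHom.id A5).range

theorem const_mem_diag (s : A5) : (fun _ : A => s) ∈ diag A := ⟨s, rfl⟩

/-- The values at `i` of the members of `H` which are trivial on `J`. -/
def valuesAt (H : Subgroup (A → A5)) (i : A) (J : Set A) : Subgroup A5 where
  carrier := {s | ∃ h ∈ H, h i = s ∧ ∀ j ∈ J, h j = 1}
  one_mem' := ⟨1, H.one_mem, rfl, fun _ _ => rfl⟩
  mul_mem' := by
    rintro a b ⟨h, hh, ha, hj⟩ ⟨h', hh', hb, hj'⟩
    exact ⟨h * h', H.mul_mem hh hh', by simp [ha, hb], fun j hm => by simp [hj j hm, hj' j hm]⟩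
  inv_mem' := by
    rintro a ⟨h, hh, ha, hj⟩
    exact ⟨h⁻¹, H.inv_mem hh, by simp [ha], fun j hm => by simp [hj j hm]⟩

theorem valuesAt_normal {H : Subgroup (A → A5)} (hd : diag A ≤ H) (i : A) (J : Set A) :
    (valuesAt H i J).Normal := by
  refine ⟨?_⟩
  rintro a ⟨h, hh, ha, hj⟩ g
  refine ⟨(fun _ => g) * h * (fun _ => g)⁻¹, ?_, by simp [ha], fun j hm => by simp [hj j hm]⟩
  exact H.mul_mem (H.mul_mem (hd (const_mem_diag g)) hh) (H.inv_mem (hd (const_mem_diag g)))

theorem valuesAt_top {H : Subgroup (A → A5)} (hd : diag A ≤ H) {i : A} {J : Set A} {s : A5}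
    (hs : s ∈ valuesAt H i J) (hne : s ≠ 1) : valuesAt H i J = ⊤ := by
  rcases (valuesAt_normal hd i J).eq_bot_or_eq_top with e | e
  · rw [e, Subgroup.mem_bot] at hs
    exact absurd hs hne
  · exact e

theorem exists_value {H : Subgroup (A → A5)} (hd : diag A ≤ H) (i : A) (J : Finset A)
    (hJ : ∀ j ∈ J, ∃ h ∈ H, h i ≠ h j) (s : A5) : ∃ h ∈ H, h i = s ∧ ∀ j ∈ J, h j = 1 := by
  classical
  suffices H' : valuesAt H i ↑J = ⊤ by
    have : s ∈ valuesAt H i ↑J := H' ▸ Subgroup.mem_top s
    exact this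
  induction J using Finset.induction_on with
  | empty =>
    refine eq_top_iff.2 fun t _ => ⟨fun _ => t, hd (const_mem_diag t), rfl, ?_⟩
    simp
  | insert j J _ ih =>
    have ih' := ih fun x hx => hJ x (Finset.mem_insert_of_mem hx)
    obtain ⟨a, b, hab⟩ := a5_noncomm
    obtain ⟨h, hh, hne⟩ := hJ j (Finset.mem_insert_self j J)
    have hj : valuesAt H i {j} = ⊤ :=
      valuesAt_top hd (s := h i * (h j)⁻¹)
        ⟨h * (fun _ => h j)⁻¹, H.mul_mem hh (H.inv_mem (hd (const_mem_diag _))), rfl,
          fun x hx => by rw [Set.mem_singleton_iff.1 hx]; simp⟩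
        (fun e => hne (mul_inv_eq_one.1 e))
    obtain ⟨p, hp, pa, pJ⟩ : a ∈ valuesAt H i ↑J := ih' ▸ Subgroup.mem_top a
    obtain ⟨q, hq, qb, qj⟩ : b ∈ valuesAt H i {j} := hj ▸ Subgroup.mem_top b
    refine valuesAt_top hd (s := a * b * a⁻¹ * b⁻¹)
      ⟨p * q * p⁻¹ * q⁻¹, H.mul_mem (H.mul_mem (H.mul_mem hp hq) (H.inv_mem hp)) (H.inv_mem hq),
        by simp [pa, qb], fun x hx => ?_⟩ ?_
    · rcases Finset.mem_insert.1 (Finset.mem_coe.1 hx) with rfl | hx
      · simp [qj x (Set.mem_singleton x)]
      · simp [pJ x hx]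
    · intro e
      exact hab (by rw [mul_inv_eq_one, mul_inv_eq_iff_eq_mul] at e; exact e)

/-- The relation between the points that no member of `H` separates. -/
def blocks (H : Subgroup (A → A5)) : Setoid A := Setoid.ker fun i (h : H) => h.1 i

theorem mem_of_respects [Fintype A] {H : Subgroup (A → A5)} (hd : diag A ≤ H) (f : A → A5)
    (hf : ∀ i j, blocks H i j → f i = f j) : f ∈ H := by
  classical
  suffices H' : ∀ F : Finset A, ∃ h ∈ H, ∀ i ∈ F, h i = f i by
    obtain ⟨h, hh, e⟩ := H' Finset.univ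
    rwa [show f = h from funext fun i => (e i (Finset.mem_univ i)).symm]
  intro F
  induction F using Finset.induction_on with
  | empty => exact ⟨1, H.one_mem, by simp⟩
  | insert i F _ ih =>
    obtain ⟨h, hh, e⟩ := ih
    by_cases hi : ∃ j ∈ F, blocks H i j
    · obtain ⟨j, hj, hij⟩ := hi
      refine ⟨h, hh, fun x hx => ?_⟩
      rcases Finset.mem_insert.1 hx with rfl | hx
      · exact (congrFun hij ⟨h, hh⟩).trans ((e j hj).trans (hf x j hij).symm)
      · exact e x hx
    · push Not at hi
      obtain ⟨q, hq, qi, qF⟩ := exists_value hd i F (fun j hj => by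
        by_contra hc
        push Not at hc
        exact hi j hj (funext fun p => hc p.1 p.2)) ((h i)⁻¹ * f i)
      refine ⟨h * q, H.mul_mem hh hq, fun x hx => ?_⟩
      rcases Finset.mem_insert.1 hx with rfl | hx
      · simp [qi]
      · simp [qF x hx, e x hx]

/-- The functions constant on every block of `s`. -/
def constOn (s : Setoid A) : Subgroup (A → A5) where
  carrier := {f | ∀ i j, s i j → f i = f j}
  one_mem' := fun _ _ _ => rfl
  mul_mem' := fun ha hb i j h => by simp [ha i j h, hb i j h]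
  inv_mem' := fun ha i j h => by simp [ha i j h]

theorem diag_le_constOn (s : Setoid A) : diag A ≤ constOn s := by
  rintro f ⟨t, rfl⟩ i j _
  rfl

theorem separated (s : Setoid A) {i j : A} (h : ∀ f ∈ constOn s, f i = f j) : s i j := by
  classical
  by_contra hn
  obtain ⟨a, b, hab⟩ := a5_noncomm
  have ha : a ≠ 1 := fun e => hab (by simp [e])
  have := h (fun x => if s i x then a else 1) (fun x y hxy => by
    have : s i x ↔ s i y := ⟨fun t => s.trans' t hxy, fun t => s.trans' t (s.symm' hxy)⟩
    by_cases t : s i x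
    · simp [t, this.1 t]
    · simp [t, mt this.2 t])
  simp [hn] at this
  exact ha this

/-- The relation on cosets of the constants given by a subgroup. -/
def cosetRel (K : Subgroup (A → A5)) : Setoid ((A → A5) ⧸ diag A) where
  r x y := ∃ f g, QuotientGroup.mk f = x ∧ QuotientGroup.mk g = y ∧ diag A ≤ K ∧ f⁻¹ * g ∈ K
    ∨ x = y
  iseqv :=
    { refl := fun x => ⟨1, 1, Or.inr rfl⟩
      symm := by
        rintro x y ⟨f, g, ⟨rfl, rfl, hd, h⟩ | h⟩
        · exact ⟨g, f, Or.inl ⟨rfl, rfl, hd, by simpa using K.inv_mem h⟩⟩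
        · exact ⟨1, 1, Or.inr h.symm⟩
      trans := by
        rintro x y z ⟨f, g, ⟨rfl, rfl, hd, h⟩ | rfl⟩ h'
        · obtain ⟨f', g', ⟨e, rfl, -, h'⟩ | rfl⟩ := h'
          · refine ⟨f, g', Or.inl ⟨rfl, rfl, hd, ?_⟩⟩
            have k := hd (QuotientGroup.eq.1 e.symm)
            have := K.mul_mem (K.mul_mem h k) h'
            simpa [mul_assoc] using this
          · exact ⟨f, g, Or.inl ⟨rfl, rfl, hd, h⟩⟩
        · exact h' }

theorem cosetRel_mk {K : Subgroup (A → A5)} (hd : diag A ≤ K) (f g : A → A5) :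
    cosetRel K (QuotientGroup.mk f) (QuotientGroup.mk g) ↔ f⁻¹ * g ∈ K := by
  constructor
  · rintro ⟨f', g', ⟨e, e', -, h⟩ | e⟩
    · have := K.mul_mem (K.mul_mem (hd (QuotientGroup.eq.1 e.symm)) h)
        (hd (QuotientGroup.eq.1 e'))
      simpa [mul_assoc] using this
    · exact hd (QuotientGroup.eq.1 e)
  · exact fun h => ⟨f, g, Or.inl ⟨rfl, rfl, hd, h⟩⟩

/-- Precomposition on cosets of the constants. -/
def reindex (g : A → A) : (A → A5) ⧸ diag A → (A → A5) ⧸ diag A :=
  Quotient.map' (fun f => f ∘ g) fun f f' h => by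
    rw [QuotientGroup.leftRel_apply] at h ⊢
    obtain ⟨t, ht⟩ := h
    exact ⟨t, funext fun a => congrFun ht (g a)⟩

theorem reindex_mk (g : A → A) (f : A → A5) :
    reindex g (QuotientGroup.mk f) = QuotientGroup.mk (f ∘ g) := rfl

theorem compat_iff {ops : List (Σ n : ℕ, (Fin n → A) → A)} (s : Setoid A) :
    Compat ops s ↔ ∀ g : A → A,
      (∀ t, Compat ops t → ∀ a b, t a b → t (g a) (g b)) → ∀ a b, s a b → s (g a) (g b) := by
  refine ⟨fun h g hg => hg s h, ?_⟩
  intro h op hop x y hxy
  classical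
  suffices H : ∀ F : Finset (Fin op.1), s (op.2 x) (op.2 (F.piecewise y x)) by
    simpa using H Finset.univ
  intro F
  induction F using Finset.induction_on with
  | empty => simpa using s.refl' _
  | insert k F hk ih =>
    refine s.trans' ih ?_
    have := h (fun c => op.2 (Function.update (F.piecewise y x) k c)) (fun t ht a b hab => by
      refine ht op hop _ _ fun j => ?_
      by_cases hj : j = k
      · subst hj
        simpa using hab
      · simpa [hj] using t.refl' _) (x k) (y k) (hxy k)
    have e1 : Function.update (F.piecewise y x) k (x k) = F.piecewise y x := by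
      conv_rhs => rw [← Function.update_eq_self k (F.piecewise y x)]
      simp [hk]
    rw [e1, ← Finset.piecewise_insert] at this
    exact this

/-- The dual of a representable lattice is representable. -/
theorem Representable.dual {L : Type} [Lattice L] (h : Representable L) : Representable Lᵒᵈ := by
  classical
  obtain ⟨A, _, _, ops, ⟨e⟩⟩ := h
  let X := (A → A5) ⧸ diag A
  have : Fintype X := Fintype.ofFinite _
  let good : List (A → A) := (Finset.univ.filter fun g : A → A =>
    ∀ t, Compat ops t → ∀ a b, t a b → t (g a) (g b)).toList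
  let tr : List (Σ n : ℕ, (Fin n → X) → X) :=
    (Finset.univ : Finset (A → A5)).toList.map fun f => ⟨1, fun x => f • x 0⟩
  let ops' : List (Σ n : ℕ, (Fin n → X) → X) :=
    tr ++ good.map fun g => ⟨1, fun x => reindex g (x 0)⟩
  have fwd : ∀ s : Setoid A, Compat ops s → Compat ops' (cosetRel (constOn s)) := by
    intro s hs op hop
    rcases List.mem_append.1 hop with h | h
    · obtain ⟨c, -, rfl⟩ := List.mem_map.1 h
      intro x y hxy
      obtain ⟨f, hf⟩ := QuotientGroup.mk_surjective (x (0 : Fin 1))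
      obtain ⟨g, hg⟩ := QuotientGroup.mk_surjective (y (0 : Fin 1))
      have := hxy (0 : Fin 1)
      show cosetRel _ (c • x (0 : Fin 1)) (c • y (0 : Fin 1))
      rw [← hf, ← hg, cosetRel_mk (diag_le_constOn s)] at this
      rw [← hf, ← hg]
      refine (cosetRel_mk (diag_le_constOn s) (c * f) (c * g)).2 ?_
      simpa [mul_assoc] using this
    · obtain ⟨g, hg, rfl⟩ := List.mem_map.1 h
      have hg' := (Finset.mem_filter.1 (Finset.mem_toList.1 hg)).2 s hs
      intro x y hxy
      obtain ⟨p, hp⟩ := QuotientGroup.mk_surjective (x (0 : Fin 1))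
      obtain ⟨q, hq⟩ := QuotientGroup.mk_surjective (y (0 : Fin 1))
      have := hxy (0 : Fin 1)
      show cosetRel _ (reindex g (x (0 : Fin 1))) (reindex g (y (0 : Fin 1)))
      rw [← hp, ← hq, cosetRel_mk (diag_le_constOn s)] at this
      rw [← hp, ← hq, reindex_mk, reindex_mk, cosetRel_mk (diag_le_constOn s)]
      exact fun i j hij => this (g i) (g j) (hg' i j hij)
  have onto : ∀ θ, Compat ops' θ → ∃ s, Compat ops s ∧ cosetRel (constOn s) = θ := by
    intro θ hθ
    have htr : ∀ c f g : A → A5, θ (QuotientGroup.mk f) (QuotientGroup.mk g) →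
        θ (QuotientGroup.mk (c * f)) (QuotientGroup.mk (c * g)) := fun c f g h =>
      hθ ⟨1, fun x => c • x 0⟩ (List.mem_append_left _ (List.mem_map.2
        ⟨c, Finset.mem_toList.2 (Finset.mem_univ c), rfl⟩))
        (fun _ => QuotientGroup.mk f) (fun _ => QuotientGroup.mk g) (fun _ => h)
    let H : Subgroup (A → A5) :=
      { carrier := {f | θ (QuotientGroup.mk 1) (QuotientGroup.mk f)}
        one_mem' := θ.refl' _
        mul_mem' := fun {a b} ha hb => θ.trans' ha (by simpa using htr a 1 b hb)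
        inv_mem' := fun {a} ha => θ.symm' (by simpa using htr a⁻¹ 1 a ha) }
    have hd : diag A ≤ H := by
      intro f hf
      show θ _ _
      rw [show (QuotientGroup.mk f : X) = QuotientGroup.mk 1 from
        QuotientGroup.eq.2 (by simpa using (diag A).inv_mem hf)]
    have hH : constOn (blocks H) = H := by
      refine le_antisymm (fun f hf => mem_of_respects hd f hf) ?_
      intro f hf i j hij
      exact congrFun hij ⟨f, hf⟩
    refine ⟨blocks H, (compat_iff _).2 fun g hg i j hij => ?_, ?_⟩
    · refine funext fun p => ?_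
      have hp : p.1 ∘ g ∈ H := by
        have := hθ ⟨1, fun x => reindex g (x 0)⟩ (List.mem_append_right _ (List.mem_map.2
          ⟨g, Finset.mem_toList.2 (Finset.mem_filter.2 ⟨Finset.mem_univ _, hg⟩), rfl⟩))
          (fun _ => QuotientGroup.mk 1) (fun _ => QuotientGroup.mk p.1) (fun _ => p.2)
        exact this
      exact congrFun hij ⟨_, hp⟩
    · ext x y
      obtain ⟨f, rfl⟩ := QuotientGroup.mk_surjective x
      obtain ⟨g, rfl⟩ := QuotientGroup.mk_surjective y
      rw [cosetRel_mk (diag_le_constOn _), hH]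
      constructor
      · intro h
        have := htr f 1 (f⁻¹ * g) h
        simpa using this
      · intro h
        show θ _ _
        simpa using htr f⁻¹ f g h
  have mono : ∀ s t : Setoid A, cosetRel (constOn t) ≤ cosetRel (constOn s) ↔ s ≤ t := by
    intro s t
    constructor
    · intro h i j hij
      refine separated t fun f hf => ?_
      have h1 : cosetRel (constOn t) (QuotientGroup.mk 1) (QuotientGroup.mk f) :=
        (cosetRel_mk (diag_le_constOn t) 1 f).2 (by simpa using hf)
      have h2 := (cosetRel_mk (diag_le_constOn s) 1 f).1 (h h1)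
      simpa using h2 i j hij
    · intro h x y hxy
      obtain ⟨f, rfl⟩ := QuotientGroup.mk_surjective x
      obtain ⟨g, rfl⟩ := QuotientGroup.mk_surjective y
      rw [cosetRel_mk (diag_le_constOn _)] at hxy ⊢
      exact fun i j hij => hxy i j (h hij)
  let F : Lᵒᵈ → {θ : Setoid X // Compat ops' θ} := fun l =>
    ⟨cosetRel (constOn (e (OrderDual.ofDual l)).1), fwd _ (e (OrderDual.ofDual l)).2⟩
  have hF : ∀ l m, F l ≤ F m ↔ l ≤ m := fun l m =>
    (mono _ _).trans (e.le_iff_le (x := OrderDual.ofDual m) (y := OrderDual.ofDual l))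
  have hinj : Function.Injective F := fun l m h =>
    le_antisymm ((hF l m).1 h.le) ((hF m l).1 h.ge)
  have hsurj : Function.Surjective F := by
    intro θ
    obtain ⟨s, hs, hs'⟩ := onto θ.1 θ.2
    refine ⟨OrderDual.toDual (e.symm ⟨s, hs⟩), Subtype.ext ?_⟩
    simp [F, hs']
  exact ⟨X, inferInstance, inferInstance, ops',
    ⟨⟨Equiv.ofBijective F ⟨hinj, hsurj⟩, fun {l m} => hF l m⟩⟩⟩

end Vale.Agent.P183
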