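import Vale.Agent.P183.Cover

/-!
The finite forest of covers and the closed sets of its nodes.
-/

namespace Vale.Agent.P183

variable {L : Type} [Lattice L] [BoundedOrder L]

/-- The label of a path. -/
def lab (s : List (Finset L × L)) : L := (s.headD (∅, ⊥)).2

/-- A path in the forest: a root, then children through covers. -/
inductive Valid : List (Finset L × L) → Prop
  | root (p : L) (hp : SupIrred p) : Valid [(∅, p)]
  | child (s : List (Finset L × L)) (C : Finset L) (c : L) (hs : Valid s)
      (hC : Cov (lab s) C) (hc : c ∈ C) : Valid ((C, c) :: s)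

/-- A node of the forest. -/
abbrev Node (L : Type) [Lattice L] [BoundedOrder L] := {s : List (Finset L × L) // Valid s}

/-- The child of `s` through the member `c` of the cover `C`. -/
def child (s : Node L) (C : Finset L) (c : L) (hC : Cov (lab s.1) C) (hc : c ∈ C) : Node L :=
  ⟨(C, c) :: s.1, Valid.child s.1 C c s.2 hC hc⟩

theorem lab_child (s : Node L) (C : Finset L) (c : L) (hC : Cov (lab s.1) C) (hc : c ∈ C) :
    lab (child s C c hC hc).1 = c := rfl

theorem Valid.supIrred {s : List (Finset L × L)} (h : Valid s) : SupIrred (lab s) := by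
  cases h with
  | root p hp => exact hp
  | child s C c hs hC hc => exact (hC.2 c hc).1

theorem Valid.chain {s : List (Finset L × L)} (h : Valid s) :
    (s.map Prod.snd).Pairwise (fun x y => Relation.TransGen Dep y x) ∧
      ∀ y ∈ s.map Prod.snd, y = lab s ∨ Relation.TransGen Dep y (lab s) := by
  induction h with
  | root p hp => simp [lab]
  | child s C c hs hC hc ih =>
    have key : ∀ y ∈ s.map Prod.snd, Relation.TransGen Dep y c := by
      intro y hy
      rcases ih.2 y hy with e | e
      · exact e ▸ Relation.TransGen.single (hC.2 c hc).2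
      · exact e.tail (hC.2 c hc).2
    refine ⟨?_, ?_⟩
    · rw [List.map_cons, List.pairwise_cons]
      exact ⟨key, ih.1⟩
    · intro y hy
      rw [List.map_cons, List.mem_cons] at hy
      rcases hy with e | e
      · exact Or.inl e
      · exact Or.inr (key y e)

theorem node_finite [Fintype L] (hL : NoDepCycle L) : Finite (Node L) := by
  refine Set.Finite.to_subtype (s := {s : List (Finset L × L) | Valid s}) ?_
  refine (List.finite_length_le (Finset L × L) (Fintype.card L)).subset ?_
  intro s hs
  have hn : (s.map Prod.snd).Nodup := by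
    refine (Valid.chain hs).1.imp ?_
    intro x y h e
    subst e
    exact hL x h
  simpa using hn.length_le_card

/-- A node belongs to a closed set exactly when all children through a cover do. -/
def Closed (N : Set (Node L)) : Prop :=
  ∀ (s : Node L) (C : Finset L) (hC : Cov (lab s.1) C),
    s ∈ N ↔ ∀ c (hc : c ∈ C), child s C c hC hc ∈ N

theorem Closed.inter {M N : Set (Node L)} (hM : Closed M) (hN : Closed N) : Closed (M ∩ N) := by
  intro s C hC
  constructor
  · exact fun h c hc => ⟨(hM s C hC).1 h.1 c hc, (hN s C hC).1 h.2 c hc⟩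
  · exact fun h => ⟨(hM s C hC).2 fun c hc => (h c hc).1, (hN s C hC).2 fun c hc => (h c hc).2⟩

/-- The least closed set containing `S`. -/
def cl (S : Set (Node L)) : Set (Node L) := {s | ∀ N, Closed N → S ⊆ N → s ∈ N}

theorem subset_cl (S : Set (Node L)) : S ⊆ cl S := fun _ hs _ _ hN => hN hs

theorem cl_le {S N : Set (Node L)} (hN : Closed N) (h : S ⊆ N) : cl S ⊆ N :=
  fun _ hs => hs N hN h

theorem cl_closed (S : Set (Node L)) : Closed (cl S) := by
  intro s C hC
  exact ⟨fun h c hc N hN hS => (hN s C hC).1 (h N hN hS) c hc,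
    fun h N hN hS => (hN s C hC).2 fun c hc => h c hc N hN hS⟩

/-- The nodes with label below `l`. -/
def Dn (l : L) : Set (Node L) := {s | lab s.1 ≤ l}

theorem sub_sup [Fintype L] {t z : Set (Node L)} (ht : Closed t) (hz : Closed z) {a b : L}
    (ha : t ∩ Dn a ⊆ z) (hb : t ∩ Dn b ⊆ z) : t ∩ Dn (a ⊔ b) ⊆ z := by
  rintro s ⟨hst, hsl⟩
  by_cases h1 : lab s.1 ≤ a
  · exact ha ⟨hst, h1⟩
  by_cases h2 : lab s.1 ≤ b
  · exact hb ⟨hst, h2⟩
  obtain ⟨C, hC, hC'⟩ := exists_cov s.2.supIrred hsl h1 h2
  refine (hz s C hC).2 fun c hc => ?_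
  have hm := (ht s C hC).1 hst c hc
  exact (hC' c hc).elim (fun e => ha ⟨hm, e⟩) (fun e => hb ⟨hm, e⟩)

theorem sub_finset_sup [Fintype L] {t z : Set (Node L)} (ht : Closed t) (hz : Closed z)
    (C : Finset L) (h : ∀ c ∈ C, t ∩ Dn c ⊆ z) : t ∩ Dn (C.sup id) ⊆ z := by
  classical
  induction C using Finset.induction_on with
  | empty =>
    rintro s ⟨-, hs⟩
    exact absurd (le_bot_iff.1 hs) s.2.supIrred.ne_bot
  | insert c C _ ih =>
    rw [Finset.sup_insert]
    exact sub_sup ht hz (h c (Finset.mem_insert_self c C))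
      (ih fun d hd => h d (Finset.mem_insert_of_mem hd))

/-- The least closed set containing all nodes with label below `l`. -/
def below (l : L) : Set (Node L) := {s | ∃ r : Node L, r.1 <:+ s.1 ∧ lab r.1 ≤ l}

theorem below_closed (l : L) : Closed (below l) := by
  intro s C hC
  constructor
  · rintro ⟨r, hr, hl⟩ c hc
    exact ⟨r, hr.trans (List.suffix_cons _ _), hl⟩
  · intro h
    by_cases hx : s ∈ below l
    · exact hx
    have hall : ∀ c ∈ C, c ≤ l := by
      intro c hc
      obtain ⟨r, hr, hl⟩ := h c hc
      rcases List.suffix_cons_iff.1 hr with e | e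
      · rw [e] at hl
        exact hl
      · exact absurd ⟨r, e, hl⟩ hx
    exact absurd ⟨s, List.suffix_rfl, le_trans hC.1 (Finset.sup_le fun c hc => hall c hc)⟩ hx

theorem univ_closed : Closed (Set.univ : Set (Node L)) := fun _ _ _ => by simp

theorem root_not_mem_below {p l : L} (hp : SupIrred p) (h : ¬ p ≤ l) :
    (⟨[(∅, p)], Valid.root p hp⟩ : Node L) ∉ below l := by
  rintro ⟨r, hr, hl⟩
  rcases List.suffix_cons_iff.1 hr with e | e
  · exact h (by rw [e] at hl; exact hl)
  · have hv := r.2
    rw [List.suffix_nil.1 e] at hv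
    cases hv

end Vale.Agent.P183
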