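import Vale.Agent.P183.Defs

/-! The separating maps between two factors. -/

namespace Vale.Agent.P183

open Classical

variable {J K : Type}

theorem colRel_samecol {A : Set K} {z z' : Bool × K} (h : colRel A z z') : z.2 = z'.2 := by
  rcases h with rfl | ⟨h, -⟩
  · rfl
  · exact h

theorem bool_pair {z u v : Bool × K} (huv : u ≠ v) (h : u.2 = v.2) (hz : z.2 = v.2) :
    z = u ∨ z = v := by
  obtain ⟨a, b⟩ := z
  obtain ⟨a', b'⟩ := u
  obtain ⟨a'', b''⟩ := v
  simp only at h hz
  subst h hz
  cases a <;> cases a' <;> cases a'' <;> simp_all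

theorem flip_pair (R : Setoid (Bool × J)) {z z' : Bool × J} (h : R z z') (hr : ¬ z.1 = z'.1)
    (hc : z.2 = z'.2) : R (false, z.2) (true, z.2) := by
  obtain ⟨a, b⟩ := z
  obtain ⟨a', b'⟩ := z'
  cases hc
  cases a <;> cases a'
  · exact absurd rfl hr
  · exact h
  · exact R.symm' h
  · exact absurd rfl hr

theorem unflip_pair (R : Setoid (Bool × J)) {z z' : Bool × J} (hr : ¬ z.1 = z'.1)
    (hc : z.2 = z'.2) (h : R (false, z.2) (true, z.2)) : R z z' := by
  obtain ⟨a, b⟩ := z
  obtain ⟨a', b'⟩ := z'
  cases hc
  cases a <;> cases a'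
  · exact absurd rfl hr
  · exact h
  · exact R.symm' h
  · exact absurd rfl hr

/-- A map `z ↦ (g z, h z)` respecting the three kinds of constraint. -/
theorem exists_gh [Nonempty K] (Tp Q : Setoid (Bool × J)) (Qc : K → Setoid (Bool × J))
    (aTp : Allowed Tp) (aQ : Allowed Q) (aQc : ∀ c, Allowed (Qc c))
    (hle : ∀ c, Qc c ≤ Q) (hmeet : ∀ c z z', Tp z z' → Q z z' → Qc c z z')
    (hall : ∀ z z', (∀ c, Qc c z z') → Tp z z')
    (u v : Bool × J) (huv : ¬ Tp u v) (c0 : K) (hc0 : ¬ Qc c0 u v) :
    ∃ g : Bool × J → Bool, ∃ h : Bool × J → K,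
      (∀ z z', Tp z z' → g z = g z') ∧ (∀ z z', Q z z' → h z = h z') ∧
      (∀ z z', Qc (h z) z z' → g z = g z') ∧ g u ≠ g v ∧ (Q u v → h u = c0) := by
  have hne : u ≠ v := fun e => huv (e ▸ Tp.refl' u)
  by_cases hA : Tp ≤ Q
  · by_cases hq : Q u v
    · refine ⟨fun z => decide (Qc c0 u z), fun _ => c0, ?_, fun _ _ _ => rfl, ?_, ?_,
        fun _ => rfl⟩
      · intro z z' h
        have h' : Qc c0 z z' := hmeet c0 z z' h (hA h)
        exact decide_eq_decide.2
          ⟨fun k => (Qc c0).trans' k h', fun k => (Qc c0).trans' k ((Qc c0).symm' h')⟩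
      · intro z z' h'
        exact decide_eq_decide.2
          ⟨fun k => (Qc c0).trans' k h', fun k => (Qc c0).trans' k ((Qc c0).symm' h')⟩
      · simp [hc0]
    · refine ⟨fun z => decide (Q u z), fun _ => c0, ?_, fun _ _ _ => rfl, ?_, ?_,
        fun _ => rfl⟩
      · intro z z' h
        exact decide_eq_decide.2
          ⟨fun k => Q.trans' k (hA h), fun k => Q.trans' k (Q.symm' (hA h))⟩
      · intro z z' h
        exact decide_eq_decide.2
          ⟨fun k => Q.trans' k (hle _ h), fun k => Q.trans' k (Q.symm' (hle _ h))⟩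
      · simp [hq]
  by_cases hB : Q ≤ Tp
  · refine ⟨fun z => decide (Tp u z), fun _ => c0, ?_, fun _ _ _ => rfl, ?_, ?_,
      fun _ => rfl⟩
    · intro z z' h
      exact decide_eq_decide.2 ⟨fun k => Tp.trans' k h, fun k => Tp.trans' k (Tp.symm' h)⟩
    · intro z z' h
      exact decide_eq_decide.2 ⟨fun k => Tp.trans' k (hB (hle _ h)),
        fun k => Tp.trans' k (Tp.symm' (hB (hle _ h)))⟩
    · simp [huv]
  -- the two relations are incomparable, so neither is universal
  let g₀ : Bool × J → Bool := fun z =>
    if u.2 = v.2 then decide (z = v) else decide (z.2 = v.2)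
  have g₀uv : g₀ u ≠ g₀ v := by
    by_cases h : u.2 = v.2 <;> simp [g₀, h, hne]
  have key : ∀ R : Setoid (Bool × J), (∀ z z', R z z' → z.2 = z'.2) → ¬ R u v →
      ∀ z z', R z z' → g₀ z = g₀ z' := by
    intro R hR hRuv z z' h
    have hc := hR z z' h
    by_cases hcol : u.2 = v.2
    · simp only [g₀, hcol, if_true]
      refine decide_eq_decide.2 ⟨?_, ?_⟩
      · intro e
        subst e
        rcases bool_pair hne hcol hc.symm with e | e
        · exact absurd (e ▸ R.symm' h) hRuv
        · exact e
      · intro e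
        subst e
        rcases bool_pair hne hcol hc with e | e
        · exact absurd (e ▸ h) hRuv
        · exact e
    · simp only [g₀, hcol, if_false, hc]
  rcases aTp with rfl | rfl | ⟨A, rfl⟩
  · exact absurd le_top hB
  · rcases aQ with rfl | rfl | ⟨B, rfl⟩
    · exact absurd le_top hA
    · exact absurd le_rfl hA
    · have hex : ∀ b : J, ∃ d, ¬ Qc d (false, b) (true, b) := by
        intro b
        by_contra hh
        push Not at hh
        have : false = true := hall _ _ hh
        exact Bool.false_ne_true this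
      let d : J → K := fun b => if colRel B u v ∧ b = u.2 then c0 else (hex b).choose
      refine ⟨Prod.fst, fun z => d z.2, fun _ _ h => h, ?_, ?_, huv, ?_⟩
      · intro z z' h
        simp only [colRel_samecol h]
      · intro z z' h
        by_contra hrow
        have hcol : z.2 = z'.2 := colRel_samecol (hle _ h)
        have hft : Qc (d z.2) (false, z.2) (true, z.2) :=
          flip_pair (Qc _) h hrow hcol
        by_cases hb : colRel B u v ∧ z.2 = u.2
        · rw [show d z.2 = c0 from if_pos hb] at hft
          apply hc0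
          exact unflip_pair (Qc _) huv (colRel_samecol hb.1) (hb.2 ▸ hft)
        · rw [show d z.2 = (hex z.2).choose from if_neg hb] at hft
          exact (hex z.2).choose_spec hft
      · intro hq
        simp [d, hq]
  · rcases aQ with rfl | rfl | ⟨B, rfl⟩
    · exact absurd le_top hA
    · have triv : ∀ d, ¬ sameRow J ≤ Qc d → ∀ z z', Qc d z z' → z = z' := by
        intro d hd z z' h
        rcases aQc d with e | e | ⟨D, e⟩
        · exact absurd (e ▸ le_top) hd
        · exact absurd (e ▸ le_rfl) hd
        · have h1 : z.1 = z'.1 := hle d h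
          have h2 : z.2 = z'.2 := colRel_samecol (e ▸ h)
          exact Prod.ext h1 h2
      have hd : ∃ d, ¬ sameRow J ≤ Qc d ∧ (sameRow J u v → d = c0) := by
        by_cases hq : sameRow J u v
        · exact ⟨c0, fun hh => hc0 (hh hq), fun _ => rfl⟩
        · by_contra hh
          push Not at hh
          apply hB
          intro z z' h
          exact hall z z' fun c => by
            by_contra hn
            exact hq (hh c (fun k => hn (k h))).1
      obtain ⟨d, hd1, hd2⟩ := hd
      refine ⟨g₀, fun _ => d, key _ (fun _ _ => colRel_samecol) huv, fun _ _ _ => rfl, ?_,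
        g₀uv, hd2⟩
      intro z z' h
      rw [triv d hd1 z z' h]
    · exact ⟨g₀, fun _ => c0, key _ (fun _ _ => colRel_samecol) huv, fun _ _ _ => rfl,
        key _ (fun z z' h => colRel_samecol (hle c0 h)) hc0, g₀uv, fun _ => rfl⟩

end Vale.Agent.P183
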