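import Vale.Agent.P183.Transfer

/-! Every such lattice of product relations is a whole congruence lattice. -/

namespace Vale.Agent.P183

open Classical

/-- The product of a family of equivalence relations. -/
def prodRel {ι : Type} {X : ι → Type} (s : ∀ i, Setoid (X i)) : Setoid (∀ i, X i) where
  r a b := ∀ i, s i (a i) (b i)
  iseqv :=
    { refl := fun a i => (s i).refl' (a i)
      symm := fun h i => (s i).symm' (h i)
      trans := fun h h' i => (s i).trans' (h i) (h' i) }

/-- The pairs at coordinate `i` that may be exchanged modulo `θ`. -/
def section' {ι : Type} {X : ι → Type} (θ : Setoid (∀ i, X i)) (i : ι) : Setoid (X i) where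
  r c d := ∀ z, θ (Function.update z i c) (Function.update z i d)
  iseqv :=
    { refl := fun _ _ => θ.refl' _
      symm := fun h z => θ.symm' (h z)
      trans := fun h h' z => θ.trans' (h z) (h' z) }

theorem prod_le {ι : Type} [Fintype ι] {X : ι → Type} (θ : Setoid (∀ i, X i))
    (s : ∀ i, Setoid (X i)) (h : ∀ i, s i ≤ section' θ i) : prodRel s ≤ θ := by
  intro a b hab
  suffices H : ∀ F : Finset ι, θ a (F.piecewise b a) by
    simpa using H Finset.univ
  intro F
  induction F using Finset.induction_on with
  | empty => simpa using θ.refl' a
  | insert i F hi ih =>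
    refine θ.trans' ih ?_
    have key := h i (hab i) (F.piecewise b a)
    have e1 : Function.update (F.piecewise b a) i (a i) = F.piecewise b a := by
      conv_rhs => rw [← Function.update_eq_self i (F.piecewise b a)]
      simp [hi]
    rw [e1, ← Finset.piecewise_insert] at key
    exact key

/-- The component of a homomorphism into a product of relation lattices. -/
def comp {L ι : Type} [Lattice L] [BoundedOrder L] {X : ι → Type}
    (f : BoundedLatticeHom L (∀ i, Setoid (X i))) (i : ι) :
    BoundedLatticeHom L (Setoid (X i)) where
  toFun l := f l i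
  map_sup' a b := by simp [map_sup]
  map_inf' a b := by simp [map_inf]
  map_top' := by simp [map_top]
  map_bot' := by simp [map_bot]

theorem representable_of_embedding {L : Type} [Lattice L] [BoundedOrder L] [Fintype L]
    {ι : Type} [Fintype ι] (K : ι → Type) [∀ i, Fintype (K i)] [∀ i, Nonempty (K i)]
    (f : BoundedLatticeHom L (∀ i, Setoid (Bool × K i))) (finj : Function.Injective f)
    (hal : ∀ l i, Allowed (f l i)) : Representable L := by
  let A := ∀ i, Bool × K i
  let P : L → Setoid A := fun l => prodRel (f l)
  let good : List (A → A) :=
    (Finset.univ.filter fun g : A → A => ∀ l a b, P l a b → P l (g a) (g b)).toList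
  let ops : List (Σ n : ℕ, (Fin n → A) → A) := good.map fun g => ⟨1, fun x => g (x 0)⟩
  have hcompat : ∀ θ : Setoid A, Compat ops θ ↔
      ∀ g : A → A, (∀ l a b, P l a b → P l (g a) (g b)) → ∀ a b, θ a b → θ (g a) (g b) := by
    intro θ
    constructor
    · intro h g hg a b hab
      exact h ⟨1, fun x => g (x 0)⟩ (List.mem_map.2 ⟨g, by simpa [good] using hg, rfl⟩)
        (fun _ => a) (fun _ => b) (fun _ => hab)
    · intro h op hop
      obtain ⟨g, hg, rfl⟩ := List.mem_map.1 hop
      intro x y hxy
      exact h g (by simpa [good] using hg) _ _ (hxy 0)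
  have refl_le : ∀ l m, P l ≤ P m → l ≤ m := by
    intro l m h
    have : f l ≤ f m := by
      intro i c d hcd
      obtain ⟨z⟩ : Nonempty A := inferInstance
      have hr : P l (Function.update z i c) (Function.update z i d) := by
        intro j
        by_cases hj : j = i
        · subst hj
          simpa using hcd
        · simpa [hj] using (f l j).refl' (z j)
      simpa using h hr i
    exact inf_eq_left.1 (finj (by rw [map_inf, inf_eq_left.2 this]))
  have mono : ∀ l m, l ≤ m → P l ≤ P m := fun l m h a b hab i =>
    (OrderHomClass.mono f h) i (hab i)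
  have memP : ∀ l, Compat ops (P l) := fun l => (hcompat _).2 fun g hg => hg l
  have onto : ∀ θ : Setoid A, Compat ops θ → ∃ l, P l = θ := by
    intro θ hθ
    have hθ' := (hcompat θ).1 hθ
    -- the least element of `L` forced by a pair
    let ls : A → A → L := fun x y =>
      Finset.univ.sup fun j => least (comp f j) (x j) (y j)
    have pair : ∀ x y, θ x y → ∀ i, f (ls x y) i ≤ section' θ i := by
      intro x y hxy i
      show comp f i (ls x y) ≤ _
      rw [show comp f i (ls x y) = Finset.univ.sup (comp f i ∘ fun j =>
        least (comp f j) (x j) (y j)) from map_finset_sup _ _ _]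
      refine Finset.sup_le fun j _ => ?_
      refine transfer (comp f j) (comp f i) (fun l => hal l j) (fun l => hal l i)
        (x j) (y j) (section' θ i) ?_
      intro φ hφ z
      refine hθ' (fun w => Function.update z i (φ (w j))) ?_ x y hxy
      intro l a b hab k
      by_cases hk : k = i
      · subst hk
        rw [Function.update_self, Function.update_self]
        exact hφ l (a j) (b j) (hab j)
      · simpa [hk] using (f l k).refl' (z k)
    have cover : ∀ x y, P (ls x y) x y := fun x y i =>
      OrderHomClass.mono (comp f i)
        (Finset.le_sup (f := fun j => least (comp f j) (x j) (y j)) (Finset.mem_univ i))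
        (least_mem (comp f i) (x i) (y i))
    let top' : L := (Finset.univ.filter fun p : A × A => θ p.1 p.2).sup fun p => ls p.1 p.2
    refine ⟨top', le_antisymm ?_ ?_⟩
    · refine prod_le θ _ fun i => ?_
      show comp f i top' ≤ _
      rw [show comp f i top' = (Finset.univ.filter fun p : A × A => θ p.1 p.2).sup
        (comp f i ∘ fun p => ls p.1 p.2) from map_finset_sup _ _ _]
      exact Finset.sup_le fun p hp => pair p.1 p.2 (Finset.mem_filter.1 hp).2 i
    · intro x y hxy
      exact mono _ _ (Finset.le_sup (f := fun p : A × A => ls p.1 p.2)
        (b := (x, y)) (by simp [hxy])) (cover x y)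
  let F : L ≃ {s : Setoid A // Compat ops s} :=
    Equiv.ofBijective (fun l => ⟨P l, memP l⟩)
      ⟨fun l m h => le_antisymm (refl_le _ _ (congrArg Subtype.val h).le)
          (refl_le _ _ (congrArg Subtype.val h).ge),
        fun s => (onto s.1 s.2).imp fun _ h => Subtype.ext h⟩
  exact ⟨A, inferInstance, inferInstance, ops,
    ⟨⟨F, fun {l m} => ⟨fun h => refl_le l m h, fun h => mono l m h⟩⟩⟩⟩

end Vale.Agent.P183
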