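import Vale.Agent.P183.Product

/-! The set `L_K` is a bounded sublattice of the partition lattice of `Bool × K`. -/

namespace Vale.Agent.P183

variable {K : Type}

theorem colRel_mono {A B : Set K} (h : A ⊆ B) : colRel A ≤ colRel B := by
  rintro a b (e | ⟨e, k⟩)
  · exact Or.inl e
  · exact Or.inr ⟨e, h k⟩

theorem colRel_empty : colRel (∅ : Set K) = ⊥ := by
  refine le_antisymm ?_ bot_le
  rintro a b (e | ⟨-, k⟩)
  · exact e
  · exact k.elim

theorem col_inf_col (A B : Set K) : colRel A ⊓ colRel B = colRel (A ∩ B) := by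
  refine le_antisymm ?_ (le_inf (colRel_mono Set.inter_subset_left)
    (colRel_mono Set.inter_subset_right))
  rintro a b ⟨h, h'⟩
  rcases h with e | ⟨e, k⟩
  · exact Or.inl e
  · rcases h' with e' | ⟨-, k'⟩
    · exact Or.inl e'
    · exact Or.inr ⟨e, k, k'⟩

theorem col_sup_col (A B : Set K) : colRel A ⊔ colRel B = colRel (A ∪ B) := by
  refine le_antisymm (sup_le (colRel_mono Set.subset_union_left)
    (colRel_mono Set.subset_union_right)) ?_
  rintro a b (e | ⟨e, k | k⟩)
  · exact e ▸ (colRel A ⊔ colRel B).refl' a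
  · exact (le_sup_left : colRel A ≤ colRel A ⊔ colRel B) (Or.inr ⟨e, k⟩)
  · exact (le_sup_right : colRel B ≤ colRel A ⊔ colRel B) (Or.inr ⟨e, k⟩)

theorem row_inf_col (A : Set K) : sameRow K ⊓ colRel A = ⊥ := by
  refine le_antisymm ?_ bot_le
  rintro a b ⟨h, h'⟩
  exact Prod.ext h (colRel_samecol h')

theorem row_sup_col (A : Set K) : Allowed (sameRow K ⊔ colRel A) := by
  rcases A.eq_empty_or_nonempty with rfl | ⟨c, hc⟩
  · rw [colRel_empty, sup_bot_eq]
    exact Or.inr (Or.inl rfl)
  · refine Or.inl (le_antisymm le_top fun a b _ => ?_)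
    have h1 : ∀ x : Bool × K, (sameRow K ⊔ colRel A) x (x.1, c) := fun x =>
      (le_sup_left : sameRow K ≤ sameRow K ⊔ colRel A) (show x.1 = (x.1, c).1 from rfl)
    have h2 : (sameRow K ⊔ colRel A) (a.1, c) (b.1, c) :=
      (le_sup_right : colRel A ≤ sameRow K ⊔ colRel A) (Or.inr ⟨rfl, hc⟩)
    exact (sameRow K ⊔ colRel A).trans' (h1 a)
      ((sameRow K ⊔ colRel A).trans' h2 ((sameRow K ⊔ colRel A).symm' (h1 b)))

theorem allowed_bot : Allowed (⊥ : Setoid (Bool × K)) :=
  Or.inr (Or.inr ⟨∅, colRel_empty.symm⟩)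

theorem allowed_sup {s t : Setoid (Bool × K)} (hs : Allowed s) (ht : Allowed t) :
    Allowed (s ⊔ t) := by
  rcases hs with rfl | rfl | ⟨A, rfl⟩
  · exact Or.inl (top_sup_eq _)
  · rcases ht with rfl | rfl | ⟨B, rfl⟩
    · exact Or.inl (sup_top_eq _)
    · rw [sup_idem]
      exact Or.inr (Or.inl rfl)
    · exact row_sup_col B
  · rcases ht with rfl | rfl | ⟨B, rfl⟩
    · exact Or.inl (sup_top_eq _)
    · rw [sup_comm]
      exact row_sup_col A
    · exact Or.inr (Or.inr ⟨_, col_sup_col A B⟩)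

theorem allowed_inf {s t : Setoid (Bool × K)} (hs : Allowed s) (ht : Allowed t) :
    Allowed (s ⊓ t) := by
  rcases hs with rfl | rfl | ⟨A, rfl⟩
  · rwa [top_inf_eq]
  · rcases ht with rfl | rfl | ⟨B, rfl⟩
    · rw [inf_top_eq]
      exact Or.inr (Or.inl rfl)
    · rw [inf_idem]
      exact Or.inr (Or.inl rfl)
    · rw [row_inf_col]
      exact allowed_bot
  · rcases ht with rfl | rfl | ⟨B, rfl⟩
    · rw [inf_top_eq]
      exact Or.inr (Or.inr ⟨A, rfl⟩)
    · rw [inf_comm, row_inf_col]
      exact allowed_bot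
    · exact Or.inr (Or.inr ⟨_, col_inf_col A B⟩)

/-- `L_K` as a sublattice. -/
def lK (K : Type) : Sublattice (Setoid (Bool × K)) where
  carrier := {s | Allowed s}
  supClosed' := fun _ hs _ ht => allowed_sup hs ht
  infClosed' := fun _ hs _ ht => allowed_inf hs ht

theorem lK_representable (K : Type) [Fintype K] [Nonempty K] : Representable (lK K) := by
  classical
  have : Fintype (Setoid (Bool × K)) :=
    Fintype.ofInjective (fun s : Setoid (Bool × K) => fun a b => s a b) (fun s t h =>
      Setoid.ext fun a b => iff_of_eq (congrFun (congrFun h a) b))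
  have : Fintype (lK K) := Fintype.ofFinite _
  let bo : BoundedOrder (lK K) :=
    { top := ⟨⊤, Or.inl rfl⟩
      le_top := fun _ => le_top (α := Setoid (Bool × K))
      bot := ⟨⊥, allowed_bot⟩
      bot_le := fun _ => bot_le (α := Setoid (Bool × K)) }
  exact representable_of_embedding (ι := Unit) (fun _ => K)
    { toFun := fun s _ => s.1
      map_sup' := fun _ _ => rfl
      map_inf' := fun _ _ => rfl
      map_top' := rfl
      map_bot' := rfl }
    (fun s t h => Subtype.ext (congrFun h ())) (fun s _ => s.2)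

end Vale.Agent.P183
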