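import Vale.Agent.P183.Cover

/-!
Finite lattices of subsemilattices of a finite semilattice have no `D`-cycles.
-/

namespace Vale.Agent.P183

open Classical

theorem noDepCycle_of_subsemilattices {L M : Type} [Lattice L] [Fintype L] [SemilatticeInf M]
    [Finite M] (f : L → Set M) (finj : Function.Injective f)
    (hinf : ∀ a b, f (a ⊓ b) = f a ∩ f b) (hsup : ∀ a b, f (a ⊔ b) = infClosure (f a ∪ f b))
    (hcl : ∀ a, InfClosed (f a)) : NoDepCycle L := by
  have mono : ∀ a b, a ≤ b → f a ⊆ f b := by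
    intro a b h
    rw [← inf_eq_left.2 h, hinf]
    exact Set.inter_subset_right
  let U : L → Set M := fun p => {m | m ∈ f p ∧ ∀ y < p, m ∉ f y}
  have drop : ∀ {p a : L} {m : M}, m ∈ U p → m ∈ f a → p ≤ a := by
    intro p a m hm ha
    by_contra h
    refine hm.2 (p ⊓ a) (lt_of_le_of_ne inf_le_left fun e => h (inf_eq_left.1 e)) ?_
    rw [hinf]
    exact ⟨hm.1, ha⟩
  have step : ∀ p q : L, Dep p q → ∀ m ∈ U p, ∃ m' ∈ U q, m < m' := by
    rintro p q ⟨-, hq, hne, x, hx, hmin⟩ m hm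
    obtain ⟨y0, hy0⟩ := not_isMin_iff.1 hq.not_isMin
    have hpx : ¬ p ≤ x := fun h => hmin y0 hy0 (le_trans h le_sup_right)
    have hpq : ¬ p ≤ q := fun h => hmin p (lt_of_le_of_ne h hne) le_sup_left
    have hmem : m ∈ f q ∪ f x ∪ Set.image2 (· ⊓ ·) (f q) (f x) := by
      refine infClosure_min (s := f q ∪ f x) Set.subset_union_left ?_
        (hsup q x ▸ mono p (q ⊔ x) hx hm.1)
      rintro a ha b hb
      rcases ha with (ha | ha) | ⟨a1, ha1, a2, ha2, rfl⟩ <;>
        rcases hb with (hb | hb) | ⟨b1, hb1, b2, hb2, rfl⟩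
      · exact Or.inl (Or.inl (hcl q ha hb))
      · exact Or.inr ⟨a, ha, b, hb, rfl⟩
      · exact Or.inr ⟨a ⊓ b1, hcl q ha hb1, b2, hb2, inf_assoc _ _ _⟩
      · exact Or.inr ⟨b, hb, a, ha, inf_comm _ _⟩
      · exact Or.inl (Or.inr (hcl x ha hb))
      · exact Or.inr ⟨b1, hb1, a ⊓ b2, hcl x ha hb2, inf_left_comm _ _ _⟩
      · exact Or.inr ⟨a1 ⊓ b, hcl q ha1 hb, a2, ha2, inf_right_comm _ _ _⟩
      · exact Or.inr ⟨a1, ha1, a2 ⊓ b, hcl x ha2 hb, (inf_assoc _ _ _).symm⟩
      · exact Or.inr ⟨a1 ⊓ b1, hcl q ha1 hb1, a2 ⊓ b2, hcl x ha2 hb2, inf_inf_inf_comm _ _ _ _⟩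
    rcases hmem with (h | h) | ⟨y1, h1, y2, h2, rfl⟩
    · exact absurd (drop hm h) hpq
    · exact absurd (drop hm h) hpx
    · refine ⟨y1, ⟨h1, fun y hy hy1 => hmin y hy (drop hm ?_)⟩,
        lt_of_le_of_ne inf_le_left fun e => hpq (drop hm ?_)⟩
      · rw [hsup]
        exact infClosed_infClosure (subset_infClosure (s := f y ∪ f x) (Or.inl hy1))
          (subset_infClosure (s := f y ∪ f x) (Or.inr h2))
      · rw [e]
        exact h1
  have trans' : ∀ p q : L, Relation.TransGen Dep p q → ∀ m ∈ U p, ∃ m' ∈ U q, m < m' := by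
    intro p q h
    induction h with
    | single h => exact step _ _ h
    | tail _ h ih =>
      intro m hm
      obtain ⟨m', hm', hlt⟩ := ih m hm
      obtain ⟨m'', hm'', hlt'⟩ := step _ _ h m' hm'
      exact ⟨m'', hm'', lt_trans hlt hlt'⟩
  intro p hp
  have hsi : SupIrred p := by
    obtain ⟨q, h, -⟩ := Relation.TransGen.head'_iff.1 hp
    exact h.1
  let _ : Nonempty L := ⟨p⟩
  let _ : BoundedOrder L := Fintype.toBoundedOrder L
  have hU : (U p).Nonempty := by
    let ps : L := (Finset.univ.filter fun y => y < p).sup id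
    have hps : ps < p := by
      refine lt_of_le_of_ne (Finset.sup_le fun y hy => (Finset.mem_filter.1 hy).2.le) fun e => ?_
      obtain ⟨y, hy, rfl⟩ := hsi.finset_sup_eq e
      exact lt_irrefl _ (Finset.mem_filter.1 hy).2
    by_contra h
    refine hps.ne (finj (Set.Subset.antisymm (mono _ _ hps.le) fun m hm => ?_))
    by_contra hm'
    exact h ⟨m, hm, fun y hy hym => hm' (mono y ps
      (Finset.le_sup (f := id) (Finset.mem_filter.2 ⟨Finset.mem_univ _, hy⟩)) hym)⟩
  obtain ⟨m, hm⟩ := Set.Finite.exists_maximal (Set.toFinite (U p)) hU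
  obtain ⟨m', hm', hlt⟩ := trans' p p hp m hm.1
  exact hlt.not_ge (hm.2 hm' hlt.le)

end Vale.Agent.P183
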