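import Vale.Agent.P183.Hom

/-!
Transfer between two coordinates: the images of a pair under the maps respecting
every relation of the lattice generate the least relation of the lattice forced on
the target coordinate.
-/

namespace Vale.Agent.P183

open Classical

variable {L : Type} [Lattice L] [BoundedOrder L] [Fintype L]

/-- The least element of `L` whose image contains the pair `(u, v)`. -/
noncomputable def least {A : Type} (P : L → Setoid A) (u v : A) : L :=
  (Finset.univ.filter fun l => P l u v).inf id

/-- The greatest element of `L` whose image lies below `d`. -/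
noncomputable def greatest {A : Type} (P : L → Setoid A) (d : Setoid A) : L :=
  (Finset.univ.filter fun l => P l ≤ d).sup id

theorem least_le {A : Type} {P : L → Setoid A} {u v : A} {l : L} (h : P l u v) :
    least P u v ≤ l :=
  Finset.inf_le (f := id) (by simp [h])

theorem least_mem {A : Type} (P : BoundedLatticeHom L (Setoid A)) (u v : A) :
    P (least P u v) u v := by
  suffices h : ∀ s : Finset L, (∀ l ∈ s, P l u v) → P (s.inf id) u v from
    h _ fun l hl => (Finset.mem_filter.1 hl).2
  intro s
  induction s using Finset.induction_on with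
  | empty =>
    intro _
    rw [Finset.inf_empty, map_top]
    exact trivial
  | insert a s _ ih =>
    intro h
    rw [Finset.inf_insert, map_inf]
    exact ⟨h a (Finset.mem_insert_self a s), ih fun l hl => h l (Finset.mem_insert_of_mem hl)⟩

theorem le_greatest {A : Type} {P : L → Setoid A} {d : Setoid A} {l : L} (h : P l ≤ d) :
    l ≤ greatest P d :=
  Finset.le_sup (f := id) (by simp [h])

theorem greatest_le {A : Type} (P : BoundedLatticeHom L (Setoid A)) (d : Setoid A) :
    P (greatest P d) ≤ d := by
  rw [greatest, map_finset_sup]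
  exact Finset.sup_le fun l hl => (Finset.mem_filter.1 hl).2

theorem bool_two : ∀ x y r r' : Bool, x ≠ y → r ≠ r' → (x = r ∧ y = r') ∨ (x = r' ∧ y = r) := by
  decide

theorem transfer {J K : Type} [Nonempty K]
    (P : BoundedLatticeHom L (Setoid (Bool × J))) (R : BoundedLatticeHom L (Setoid (Bool × K)))
    (aP : ∀ l, Allowed (P l)) (aR : ∀ l, Allowed (R l))
    (u v : Bool × J) (E : Setoid (Bool × K))
    (hE : ∀ φ : Bool × J → Bool × K,
      (∀ l z z', P l z z' → R l (φ z) (φ z')) → E (φ u) (φ v)) :
    R (least P u v) ≤ E := by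
  let Q : Setoid (Bool × J) := P (greatest R (colRel Set.univ))
  let Tp : Setoid (Bool × J) := P (greatest R (sameRow K))
  let ne' : K → Set K := fun c => {x | x ≠ c}
  let Qc : K → Setoid (Bool × J) := fun c => P (greatest R (colRel (ne' c)))
  -- `P (greatest R d)` relates a pair exactly when the forced relation lies below `d`
  have down : ∀ d z z', P (greatest R d) z z' → R (least P z z') ≤ d := fun d z z' h =>
    le_trans (OrderHomClass.mono R (least_le h)) (greatest_le R d)
  have up : ∀ d z z', R (least P z z') ≤ d → P (greatest R d) z z' := fun d z z' h =>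
    OrderHomClass.mono P (le_greatest h) (least_mem P z z')
  have hle : ∀ c, Qc c ≤ Q := by
    intro c z z' h
    apply up
    intro a b hab
    rcases down _ _ _ h hab with e | ⟨e, -⟩
    · exact Or.inl e
    · exact Or.inr ⟨e, Set.mem_univ _⟩
  have hmeet : ∀ c z z', Tp z z' → Q z z' → Qc c z z' := by
    intro c z z' h1 h2
    apply up
    intro a b hab
    exact Or.inl (Prod.ext (down _ _ _ h1 hab) (colRel_samecol (down _ _ _ h2 hab)))
  have hall : ∀ z z', (∀ c, Qc c z z') → Tp z z' := by
    intro z z' h
    apply up
    intro a b hab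
    rcases down _ _ _ (h a.2) hab with e | ⟨-, e⟩
    · exact congrArg Prod.fst e
    · exact absurd rfl e
  -- pairs `(g, h)` satisfying the three constraints give admissible maps
  have mk : ∀ (g : Bool × J → Bool) (h : Bool × J → K),
      (∀ z z', Tp z z' → g z = g z') → (∀ z z', Q z z' → h z = h z') →
      (∀ z z', Qc (h z) z z' → g z = g z') → E (g u, h u) (g v, h v) := by
    intro g h h1 h2 h3
    refine hE (fun z => (g z, h z)) ?_
    intro l z z' hl
    have mono' : ∀ d, R l ≤ d → P (greatest R d) z z' := fun d hd =>
      OrderHomClass.mono P (le_greatest hd) hl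
    rcases aR l with e | e | ⟨A, e⟩
    · rw [e]
      exact trivial
    · rw [e]
      exact h1 _ _ (mono' _ e.le)
    · rw [e]
      have hc : h z = h z' := by
        refine h2 _ _ (mono' _ ?_)
        rw [e]
        rintro a b (k | ⟨k, -⟩)
        · exact Or.inl k
        · exact Or.inr ⟨k, Set.mem_univ _⟩
      by_cases hA : h z ∈ A
      · exact Or.inr ⟨hc, hA⟩
      · refine Or.inl (Prod.ext (h3 _ _ (mono' _ ?_)) hc)
        rw [e]
        rintro a b (k | ⟨k, k'⟩)
        · exact Or.inl k
        · exact Or.inr ⟨k, fun hh => hA (hh ▸ k')⟩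
  have pEdge : ¬ R (least P u v) ≤ colRel Set.univ → ∀ r c c', E (r, c) (r, c') := by
    intro hw r c c'
    have hq : ¬ Q u v := fun k => hw (down _ _ _ k)
    have := mk (fun _ => r) (fun z => if Q u z then c else c') (fun _ _ _ => rfl) ?_
      (fun _ _ _ => rfl)
    · simpa [hq, Q.refl' u] using this
    · intro z z' k
      have : Q u z ↔ Q u z' := ⟨fun t => Q.trans' t k, fun t => Q.trans' t (Q.symm' k)⟩
      by_cases t : Q u z
      · simp only [t, this.1 t, if_true]
      · simp only [t, mt this.2 t, if_false]
  intro a b hab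
  rcases aR (least P u v) with e | e | ⟨A, e⟩
  · -- the universal relation
    have pE : ∀ r c c', E (r, c) (r, c') := by
      intro r c c'
      by_cases hc : c = c'
      · exact hc ▸ E.refl' _
      · refine pEdge ?_ r c c'
        intro hh
        exact hc (colRel_samecol (hh (show R (least P u v) (r, c) (r, c') by
          rw [e]; exact trivial)))
    by_cases hr : a.1 = b.1
    · obtain ⟨r, c⟩ := a
      obtain ⟨r', c'⟩ := b
      simp only at hr
      exact hr ▸ pE r c c'
    · have htp : ¬ Tp u v := fun k => hr (down _ _ _ k hab)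
      obtain ⟨c0, hc0⟩ : ∃ c0, ¬ Qc c0 u v := by
        by_contra hh
        push Not at hh
        exact htp (hall _ _ hh)
      obtain ⟨g, h, h1, h2, h3, hg, -⟩ :=
        exists_gh Tp Q Qc (aP _) (aP _) (fun _ => aP _) hle hmeet hall u v htp c0 hc0
      have hE' := mk g h h1 h2 h3
      obtain ⟨r, c⟩ := a
      obtain ⟨r', c'⟩ := b
      simp only at hr
      have : (g u = r ∧ g v = r') ∨ (g u = r' ∧ g v = r) := by
        exact bool_two _ _ _ _ hg hr
      rcases this with ⟨p, q⟩ | ⟨p, q⟩ <;> rw [p, q] at hE'
      · exact E.trans' (pE r c (h u)) (E.trans' hE' (pE r' (h v) c'))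
      · exact E.trans' (pE r c (h v)) (E.trans' (E.symm' hE') (pE r' (h u) c'))
  · -- the row relation
    have hr : a.1 = b.1 := by
      rw [e] at hab
      exact hab
    by_cases hc : a.2 = b.2
    · exact (Prod.ext hr hc) ▸ E.refl' a
    · have := pEdge (fun hh => hc (colRel_samecol (hh hab))) a.1 a.2 b.2
      exact (show b = (a.1, b.2) from Prod.ext hr.symm rfl) ▸ this
  · -- a column relation
    rw [e] at hab
    rcases hab with k | ⟨k, kA⟩
    · exact k ▸ E.refl' a
    · by_cases hab' : a = b
      · exact hab' ▸ E.refl' a
      have hr : a.1 ≠ b.1 := fun t => hab' (Prod.ext t k)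
      have mem : R (least P u v) a b := by
        rw [e]
        exact Or.inr ⟨k, kA⟩
      have htp : ¬ Tp u v := fun t => hr (down _ _ _ t mem)
      have hc0 : ¬ Qc a.2 u v := by
        intro t
        rcases down _ _ _ t mem with x | ⟨-, x⟩
        · exact hab' x
        · exact x rfl
      have hq : Q u v := by
        apply up
        rw [e]
        rintro x y (t | ⟨t, -⟩)
        · exact Or.inl t
        · exact Or.inr ⟨t, Set.mem_univ _⟩
      obtain ⟨g, h, h1, h2, h3, hg, hh⟩ :=
        exists_gh Tp Q Qc (aP _) (aP _) (fun _ => aP _) hle hmeet hall u v htp a.2 hc0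
      have hE' := mk g h h1 h2 h3
      rw [← h2 u v hq, hh hq] at hE'
      obtain ⟨r, c⟩ := a
      obtain ⟨r', c'⟩ := b
      simp only at k hr hE'
      subst k
      have : (g u = r ∧ g v = r') ∨ (g u = r' ∧ g v = r) := by
        exact bool_two _ _ _ _ hg hr
      rcases this with ⟨p, q⟩ | ⟨p, q⟩ <;> rw [p, q] at hE'
      · exact hE'
      · exact E.symm' hE'

end Vale.Agent.P183
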