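import Vale.Agent.P183.Defs
import Vale.Agent.P183.Forest

/-!
The dual of a finite lattice without `D`-cycles is a congruence lattice of a finite algebra.
-/

namespace Vale.Agent.P183

variable {L : Type} [Lattice L] [BoundedOrder L]

/-- The carrier of the algebra. -/
abbrev Carrier (L : Type) [Lattice L] [BoundedOrder L] := {N : Set (Node L) // Closed N}

/-- Intersection on the carrier. -/
def meetC (x y : Carrier L) : Carrier L := ⟨x.1 ∩ y.1, x.2.inter y.2⟩

/-- The congruence belonging to `l`: agreement on the nodes with label below `l`. -/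
def agree (l : L) : Setoid (Carrier L) := Setoid.ker fun x => x.1 ∩ Dn l

theorem agree_iff {l : L} {x y : Carrier L} : agree l x y ↔ x.1 ∩ Dn l = y.1 ∩ Dn l := Iff.rfl

theorem agree_anti {l m : L} (h : l ≤ m) : agree (L := L) m ≤ agree l := by
  intro x y hxy
  have hsub : Dn (L := L) l ⊆ Dn m := fun s hs => le_trans hs h
  rw [agree_iff] at hxy ⊢
  have e : Dn m ∩ Dn l = Dn (L := L) l := Set.inter_eq_right.2 hsub
  rw [← e, ← Set.inter_assoc, ← Set.inter_assoc, hxy]

theorem agree_reflect [Fintype L] {l m : L} (h : agree (L := L) l ≤ agree m) : m ≤ l := by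
  obtain ⟨S, hS, hS'⟩ := exists_supIrred_decomposition m
  rw [← hS]
  refine Finset.sup_le fun p hp => ?_
  by_contra hpl
  have hpm : p ≤ m := hS ▸ Finset.le_sup (f := id) hp
  let x : Carrier L := ⟨Set.univ, univ_closed⟩
  let y : Carrier L := ⟨below l, below_closed l⟩
  have hxy : agree l x y := by
    rw [agree_iff]
    ext s
    exact ⟨fun hs => ⟨⟨s, List.suffix_rfl, hs.2⟩, hs.2⟩, fun hs => ⟨trivial, hs.2⟩⟩
  have hm := agree_iff.1 (h hxy)
  have : (⟨[(∅, p)], Valid.root p (hS' hp)⟩ : Node L) ∈ x.1 ∩ Dn m := ⟨trivial, hpm⟩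
  rw [hm] at this
  exact root_not_mem_below (hS' hp) hpl this.1

/-- `n` is a top of `k`: it lies in `k` and is not a child of a member of `k`. -/
def Top (k : Set (Node L)) (n : Node L) : Prop :=
  n ∈ k ∧ ∀ (s : Node L) C c hC hc, n = child s C c hC hc → s ∉ k

theorem top_induction {k z : Set (Node L)} (hz : Closed z) (h : ∀ n, Top k n → n ∈ z) : k ⊆ z := by
  suffices H : ∀ s (hs : Valid s), (⟨s, hs⟩ : Node L) ∈ k → (⟨s, hs⟩ : Node L) ∈ z from
    fun s hs => H s.1 s.2 hs
  intro s hs
  induction hs with
  | root p hp =>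
    intro hk
    refine h _ ⟨hk, fun r C c hC hc e => ?_⟩
    have e' := congrArg (fun n : Node L => n.1.length) e
    simp only [child, List.length_cons, List.length_nil] at e'
    exact absurd (List.length_pos_iff.2 (fun h0 : r.1 = [] => by
      have hv := r.2
      rw [h0] at hv
      cases hv)) (by omega)
  | child s C c hs hC hc ih =>
    intro hk
    by_cases hp : (⟨s, hs⟩ : Node L) ∈ k
    · exact (hz ⟨s, hs⟩ C hC).1 (ih hp) c hc
    · refine h _ ⟨hk, fun r C' c' hC' hc' e => ?_⟩
      have e' : (C, c) :: s = (C', c') :: r.1 := congrArg Subtype.val e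
      have : r = ⟨s, hs⟩ := Subtype.ext (List.cons.inj e').2.symm
      rwa [this]

/-- The sets assigned to the nodes below a top, starting from the node `m`. -/
def spread (m : Node L) : List (Finset L × L) → Set (Node L)
  | [] => cl {m}
  | ec :: e => cl (spread m e ∩ Dn ec.2)

theorem spread_closed (m : Node L) : ∀ e, Closed (spread m e)
  | [] => cl_closed _
  | _ :: _ => cl_closed _

theorem spread_le (m : Node L) : ∀ e, spread m e ⊆ cl {m}
  | [] => subset_rfl
  | _ :: e => cl_le (cl_closed _) (Set.inter_subset_left.trans (spread_le m e))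

/-- `spread` is generated by the nodes below the label of the path. -/
theorem spread_gen {n m : Node L} (hm : lab m.1 ≤ lab n.1) (e : List (Finset L × L))
    {z : Set (Node L)} (hz : Closed z) (h : spread m e ∩ Dn (lab (e ++ n.1)) ⊆ z) :
    spread m e ⊆ z := by
  cases e with
  | nil => exact cl_le hz fun s hs => h ⟨subset_cl _ hs, by rw [hs]; exact hm⟩
  | cons ec e => exact cl_le hz fun s hs => h ⟨subset_cl _ hs, hs.2⟩

/-- The translation of closed sets sending the membership of `m` to that of `n`. -/
def shift (k : Set (Node L)) (n m : Node L) (z : Set (Node L)) : Set (Node L) :=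
  {s | s ∈ k ∧ ∀ e, s.1 = e ++ n.1 → spread m e ⊆ z}

theorem shift_closed [Fintype L] {k z : Set (Node L)} {n m : Node L} (hk : Closed k)
    (hn : Top k n) (hm : lab m.1 ≤ lab n.1) (hz : Closed z) : Closed (shift k n m z) := by
  intro s C hC
  constructor
  · rintro ⟨hsk, hs⟩ c hc
    refine ⟨(hk s C hC).1 hsk c hc, fun e he => ?_⟩
    cases e with
    | nil => exact absurd hsk (hn.2 s C c hC hc (Subtype.ext he.symm))
    | cons ec e =>
      have h' := List.cons.inj (he : (C, c) :: s.1 = ec :: (e ++ n.1))
      exact cl_le hz (Set.inter_subset_left.trans (hs e h'.2))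
  · intro h
    refine ⟨(hk s C hC).2 fun c hc => (h c hc).1, fun e he => ?_⟩
    refine spread_gen hm e hz ?_
    rw [← he]
    refine subset_trans (Set.inter_subset_inter_right _ ?_)
      (sub_finset_sup (spread_closed m e) hz C fun c hc => ?_)
    · exact fun t ht => le_trans ht hC.1
    · refine subset_trans ?_ ((h c hc).2 ((C, c) :: e) ?_)
      · exact fun t ht => subset_cl _ ht
      · show (C, c) :: s.1 = _
        rw [he]
        rfl

theorem shift_agree [Fintype L] {k : Set (Node L)} {n m : Node L} (hm : lab m.1 ≤ lab n.1)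
    {l : L} {z z' : Set (Node L)} (hz' : Closed z') (h : z ∩ Dn l = z' ∩ Dn l) :
    shift k n m z ∩ Dn l ⊆ shift k n m z' := by
  rintro s ⟨⟨hsk, hs⟩, hsl⟩
  refine ⟨hsk, fun e he => spread_gen hm e hz' ?_⟩
  rintro t ⟨ht, htl⟩
  rw [← he] at htl
  have : t ∈ z' ∩ Dn l := h ▸ ⟨hs e he ht, le_trans htl hsl⟩
  exact this.1

theorem le_shift {k z : Set (Node L)} {n m : Node L} (hz : Closed z) (h : m ∈ z) :
    k ⊆ shift k n m z :=
  fun s hs => ⟨hs, fun e _ => (spread_le m e).trans (cl_le hz (Set.singleton_subset_iff.2 h))⟩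

theorem mem_of_top_mem_shift {k z : Set (Node L)} {n m : Node L} (h : n ∈ shift k n m z) :
    m ∈ z :=
  h.2 [] rfl (subset_cl _ rfl)

theorem eq_agree [Fintype L] (hL : NoDepCycle L) (θ : Setoid (Carrier L))
    (hmeet : ∀ x x' y y', θ x x' → θ y y' → θ (meetC x y) (meetC x' y'))
    (hmap : ∀ g : Carrier L → Carrier L, (∀ l x y, agree l x y → agree l (g x) (g y)) →
      ∀ x y, θ x y → θ (g x) (g y)) : ∃ l, agree l = θ := by
  classical
  have := node_finite hL
  let IsLeast' : Carrier L → Prop := fun k => ∀ y, θ k y → k.1 ⊆ y.1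
  have class_least : ∀ x, ∃ k, θ x k ∧ IsLeast' k ∧ k.1 ⊆ x.1 := by
    intro x
    obtain ⟨k, hk, hmin⟩ := Set.Finite.exists_minimalFor (fun y : Carrier L => y.1)
      {y | θ x y} (Set.toFinite _) ⟨x, θ.refl' x⟩
    have least' : ∀ y, θ x y → k.1 ⊆ y.1 := by
      intro y hy
      have e : θ x (meetC k y) := by
        have := hmeet x k x y hk hy
        rwa [show meetC x x = x from Subtype.ext (Set.inter_self _)] at this
      exact (hmin e Set.inter_subset_left).trans Set.inter_subset_right
    exact ⟨k, hk, fun y hy => least' y (θ.trans' hk hy), least' x (θ.refl' x)⟩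
  let T : Finset L := Finset.univ.filter fun q =>
    ∃ k, IsLeast' k ∧ ∃ n, Top k.1 n ∧ lab n.1 = q
  refine ⟨T.sup id, le_antisymm ?_ ?_⟩
  · intro x y hxy
    have half : ∀ x y : Carrier L, agree (T.sup id) x y →
        ∀ k : Carrier L, IsLeast' k → k.1 ⊆ x.1 → k.1 ⊆ y.1 := by
      intro x y h k hk hkx
      refine top_induction y.2 fun n hn => ?_
      have hl : lab n.1 ≤ T.sup id :=
        Finset.le_sup (f := id) (Finset.mem_filter.2 ⟨Finset.mem_univ _, k, hk, n, hn, rfl⟩)
      have : n ∈ y.1 ∩ Dn (T.sup id) := agree_iff.1 h ▸ ⟨hkx hn.1, hl⟩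
      exact this.1
    obtain ⟨kx, h1, h2, h3⟩ := class_least x
    obtain ⟨ky, h4, h5, h6⟩ := class_least y
    have hkx := half x y hxy kx h2 h3
    have hky := half y x ((agree _).symm' hxy) ky h5 h6
    have e1 : θ (meetC x y) kx := by
      have := hmeet x kx y y h1 (θ.refl' y)
      rwa [show meetC kx y = kx from Subtype.ext (Set.inter_eq_left.2 hkx)] at this
    have e2 : θ (meetC x y) ky := by
      have := hmeet x x y ky (θ.refl' x) h4
      rwa [show meetC x ky = ky from Subtype.ext (Set.inter_eq_right.2 hky)] at this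
    exact θ.trans' h1 (θ.trans' (θ.trans' (θ.symm' e1) e2) (θ.symm' h4))
  · have half : ∀ x y : Carrier L, θ x y → x.1 ∩ Dn (T.sup id) ⊆ y.1 := by
      intro x y hxy
      refine sub_finset_sup x.2 y.2 T fun q hq => ?_
      obtain ⟨-, k, hk, n, hn, rfl⟩ := Finset.mem_filter.1 hq
      rintro m ⟨hmx, hm⟩
      let g : Carrier L → Carrier L := fun z =>
        ⟨shift k.1 n m z.1, shift_closed k.2 hn hm z.2⟩
      have hg : ∀ l x y, agree l x y → agree l (g x) (g y) := by
        intro l a b h
        rw [agree_iff] at h ⊢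
        exact Set.Subset.antisymm
          (Set.subset_inter (shift_agree hm b.2 h) Set.inter_subset_right)
          (Set.subset_inter (shift_agree hm a.2 h.symm) Set.inter_subset_right)
      have gx : g x = k := Subtype.ext
        (Set.Subset.antisymm (fun s hs => hs.1) (le_shift x.2 hmx))
      have hkg := hk (g y) (gx ▸ hmap g hg x y hxy)
      exact mem_of_top_mem_shift (hkg hn.1)
    intro x y hxy
    rw [agree_iff]
    exact Set.Subset.antisymm (Set.subset_inter (half x y hxy) Set.inter_subset_right)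
      (Set.subset_inter (half y x (θ.symm' hxy)) Set.inter_subset_right)

/-- The dual of a finite lattice without `D`-cycles is representable. -/
theorem representable_dual [Fintype L] (hL : NoDepCycle L) : Representable Lᵒᵈ := by
  classical
  have := node_finite hL
  have : Fintype (Carrier L) := Fintype.ofFinite _
  have hne : Nonempty (Carrier L) := ⟨⟨Set.univ, univ_closed⟩⟩
  let good : List (Carrier L → Carrier L) :=
    (Finset.univ.filter fun g : Carrier L → Carrier L =>
      ∀ l x y, agree l x y → agree l (g x) (g y)).toList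
  let ops : List (Σ n : ℕ, (Fin n → Carrier L) → Carrier L) :=
    ⟨2, fun x => meetC (x 0) (x 1)⟩ :: good.map fun g => ⟨1, fun x => g (x 0)⟩
  have mem : ∀ l, Compat ops (agree (L := L) l) := by
    intro l op hop
    rcases List.mem_cons.1 hop with rfl | h
    · intro x y hxy
      rw [agree_iff]
      show (x 0).1 ∩ (x 1).1 ∩ Dn l = (y 0).1 ∩ (y 1).1 ∩ Dn l
      rw [Set.inter_inter_distrib_right, agree_iff.1 (hxy (0 : Fin 2)),
        agree_iff.1 (hxy (1 : Fin 2)), ← Set.inter_inter_distrib_right]
    · obtain ⟨g, hg, rfl⟩ := List.mem_map.1 h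
      intro x y hxy
      exact (Finset.mem_filter.1 (Finset.mem_toList.1 hg)).2 l _ _ (hxy (0 : Fin 1))
  have onto : ∀ θ : Setoid (Carrier L), Compat ops θ → ∃ l, agree l = θ := by
    intro θ hθ
    refine eq_agree hL θ ?_ ?_
    · intro x x' y y' h h'
      have := hθ ⟨2, fun x => meetC (x 0) (x 1)⟩ List.mem_cons_self
        ![x, y] ![x', y'] (by
          intro i
          match i with
          | ⟨0, _⟩ => exact h
          | ⟨1, _⟩ => exact h')
      exact this
    · intro g hg x y hxy
      exact hθ ⟨1, fun x => g (x 0)⟩ (List.mem_cons_of_mem _ (List.mem_map.2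
        ⟨g, Finset.mem_toList.2 (Finset.mem_filter.2 ⟨Finset.mem_univ _, hg⟩), rfl⟩))
        (fun _ => x) (fun _ => y) (fun _ => hxy)
  let F : Lᵒᵈ ≃ {s : Setoid (Carrier L) // Compat ops s} :=
    Equiv.ofBijective (fun l => ⟨agree (OrderDual.ofDual l), mem _⟩)
      ⟨fun l m h => by
          have e : agree (OrderDual.ofDual l) = agree (OrderDual.ofDual m) :=
            congrArg Subtype.val h
          have e1 : OrderDual.ofDual l ≤ OrderDual.ofDual m := agree_reflect e.ge
          have e2 : OrderDual.ofDual m ≤ OrderDual.ofDual l := agree_reflect e.le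
          exact OrderDual.ofDual.injective (le_antisymm e1 e2),
        fun s => by
          obtain ⟨l, hl⟩ := onto s.1 s.2
          exact ⟨OrderDual.toDual l, Subtype.ext hl⟩⟩
  exact ⟨Carrier L, inferInstance, hne, ops,
    ⟨⟨F, fun {l m} =>
      ⟨fun h => (agree_reflect (l := OrderDual.ofDual l) (m := OrderDual.ofDual m) h :),
        fun h => agree_anti (l := OrderDual.ofDual m) (m := OrderDual.ofDual l) h⟩⟩⟩⟩

end Vale.Agent.P183
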